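import Vale.Agent.P105.Singular
import Vale.Agent.P105.GoodOfGadget
import Vale.Agent.P105.Tower
import Vale.Agent.P105.BaseGadget
import Vale.Agent.P105.Algebra
import Vale.Agent.P105.Pisot

/-!
# P105: a singular Bernoulli convolution whose parameter is not the reciprocal of a Pisot number
-/

open MeasureTheory

namespace Vale.Agent.Results.P105.SalemSingular

open Vale.Agent.P105

theorem result :
    ∃ l : ℝ, 1 / 2 < l ∧ l < 1 ∧ (l⁻¹) ^ 4 - 2 * (l⁻¹) ^ 3 + (l⁻¹) ^ 2 - 2 * l⁻¹ + 1 = 0 ∧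
      IsIntegral ℤ l⁻¹ ∧ ¬ IsPisot l⁻¹ ∧
      ∃ A : Set ℝ, MeasurableSet A ∧ volume A = 0 ∧ bconv l A = 1 := by
  have hl := rho_mem_Ioo
  refine ⟨rho, hl.1, hl.2, ?_, ?_, ?_, ?_⟩
  · simpa [rho] using beta_quartic
  · simpa [rho] using isIntegral_beta
  · simpa [rho] using not_isPisot_beta
  · have hs := singular_of_good one_lt_beta (good_of_smallGadgets (by
      obtain ⟨y, Φ, h⟩ := exists_baseGadget
      exact Tower.small_of_base h))
    exact full_null_set (by linarith [hl.1]) hl.2 hs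

end Vale.Agent.Results.P105.SalemSingular
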